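import Vale.Agent.P167.H947.Flow
import Vale.Agent.P153.R2.STEP.Flow

/-!
# P167, block DRV6 (D3): the same for any driver and any hydrodynamic map

`hydro_flow`: if `HH \ K` is the Loewner domain of the continuous driver `W` at time `t`, every
hydrodynamically normalised map `g` of `HH \ K` is the time-`t` map, and (`hydro_link`) extends
across the surviving real points.
-/

namespace Vale.Agent.P167.H947

open Complex Metric Set Filter Topology MeasureTheory Vale.Agent.P164 Vale.Agent.P153.BESS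
open Vale.Agent.P167.H411 Vale.Agent.P153.R2.L1
open scoped ComplexConjugate

variable {W : ℝ → ℝ} {t : ℝ}

theorem flow_gf (ht : 0 ≤ t) (hW : ContinuousOn W (Icc 0 t)) {z : ℂ}
    (hz : z ∈ loewnerDomain W t) : flow W t z = gf W z t :=
  flow_loewner ht hW (gf_sol ht hz)

/-- Every hydrodynamic map of the domain is the time-`t` map. -/
theorem hydro_flow (hW : Continuous W) (ht : 0 ≤ t) {K : Set ℂ} {g : ℂ → ℂ} (hg : IsHydro K g)
    (hK : HH \ K = loewnerDomain W t) {z : ℂ} (hz : z ∈ loewnerDomain W t) :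
    g z = flow W t z := by
  have h1 := Vale.Agent.P153.R2.STEP.gf_isHydro hW ht
  have h2 := s_unique K _ g _ hg h1 (by rw [hK, Vale.Agent.P153.R2.STEP.dom_compl ht])
    (by rw [hK]; exact hz)
  rw [h2, flow_gf ht hW.continuousOn hz]

/-- **The hydrodynamic maps near a surviving real point.** -/
theorem hydro_link (hW : Continuous W) (ht : 0 ≤ t) {K : Set ℂ} {g : ℂ → ℂ} (hg : IsHydro K g)
    (hK : HH \ K = loewnerDomain W t) {b : ℝ} {y : ℝ → ℝ} (hy : RSol W b t y) :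
    ∃ r > 0, ∃ Φ : ℂ → ℂ,
      DifferentiableOn ℂ Φ (ball (b : ℂ) r) ∧ InjOn Φ (ball (b : ℂ) r) ∧
      (∀ z ∈ ball (b : ℂ) r, Φ (conj z) = conj (Φ z)) ∧
      (∀ x : ℝ, (x : ℂ) ∈ ball (b : ℂ) r → (Φ x).im = 0) ∧
      Φ b = y t ∧ HasDerivAt Φ ((Real.exp (ldv W y t) : ℝ) : ℂ) b ∧
      (∀ z ∈ ball (b : ℂ) r, 0 < z.im → z ∉ K ∧ Φ z = g z) := by
  have hWc : ContinuousOn W (Icc 0 t) := hW.continuousOn
  obtain ⟨r, hr, hsub⟩ := Metric.isOpen_iff.1 (isOpen_surv ht hWc) (b : ℂ) ⟨_, hy.csol⟩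
  refine ⟨r, hr, flow W t, (differentiableOn_flow ht hWc).mono hsub, (flow_inj ht hWc).mono hsub,
    fun z hz => flow_conj ht hWc (hsub hz), fun x hx => ?_, flow_rsol ht hWc hy,
    hasDerivAt_flow_real ht hWc hy, fun z hz hzi => ?_⟩
  · have h1 := flow_conj ht hWc (hsub hx)
    rw [conj_ofReal] at h1
    exact Complex.conj_eq_iff_im.1 h1.symm
  · have h1 : z ∈ loewnerDomain W t := (surv_inter hWc hzi).1 (hsub hz)
    refine ⟨?_, (hydro_flow hW ht hg hK h1).symm⟩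
    rw [← hK] at h1
    exact h1.2

/-- boundary value -/
theorem hydro_tendsto (hW : Continuous W) (ht : 0 ≤ t) {K : Set ℂ} {g : ℂ → ℂ} (hg : IsHydro K g)
    (hK : HH \ K = loewnerDomain W t) {b : ℝ} {y : ℝ → ℝ} (hy : RSol W b t y) :
    Tendsto g (𝓝[HH] (b : ℂ)) (𝓝 ((y t : ℝ) : ℂ)) := by
  obtain ⟨r, hr, Φ, -, -, -, -, h5, h6, h7⟩ := hydro_link hW ht hg hK hy
  have h8 : Tendsto Φ (𝓝[HH] (b : ℂ)) (𝓝 ((y t : ℝ) : ℂ)) := by
    have := h6.continuousAt.tendsto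
    rw [h5] at this
    exact this.mono_left nhdsWithin_le_nhds
  refine h8.congr' ?_
  filter_upwards [self_mem_nhdsWithin, mem_nhdsWithin_of_mem_nhds (ball_mem_nhds (b : ℂ) hr)]
    with z hz hz'
  exact (h7 z hz' hz).2

/-- boundary derivative -/
theorem hydro_tendsto_deriv (hW : Continuous W) (ht : 0 ≤ t) {K : Set ℂ} {g : ℂ → ℂ}
    (hg : IsHydro K g) (hK : HH \ K = loewnerDomain W t) {b : ℝ} {y : ℝ → ℝ}
    (hy : RSol W b t y) :
    Tendsto (fun z => (g z - y t) / (z - b)) (𝓝[HH] (b : ℂ))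
      (𝓝 ((Real.exp (ldv W y t) : ℝ) : ℂ)) := by
  obtain ⟨r, hr, Φ, -, -, -, -, h5, h6, h7⟩ := hydro_link hW ht hg hK hy
  rw [hasDerivAt_iff_tendsto_slope] at h6
  have h8 : 𝓝[HH] (b : ℂ) ≤ 𝓝[≠] (b : ℂ) := by
    refine nhdsWithin_mono _ fun z hz => ?_
    rintro rfl
    rw [mem_HH, ofReal_im] at hz
    exact lt_irrefl _ hz
  refine (h6.mono_left h8).congr' ?_
  filter_upwards [self_mem_nhdsWithin, mem_nhdsWithin_of_mem_nhds (ball_mem_nhds (b : ℂ) hr)]
    with z hz hz'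
  rw [slope_def_field, h5, (h7 z hz' hz).2]

/-- **Far real points survive**, in terms of the size of the hull. -/
theorem exists_rsol_of_dom (hW : Continuous W) (hW0 : W 0 = 0) (ht : 0 ≤ t) {r : ℝ} (hr : 0 < r)
    (h : ∀ z : ℂ, 0 < z.im → r < ‖z‖ → z ∈ loewnerDomain W t) {b : ℝ} (hb : 28 * r ≤ |b|) :
    ∃ y, RSol W b t y := by
  obtain ⟨h1, h2⟩ := Vale.Agent.P153.R2.STEP.osc_of_hull hW hW0 ht hr h
  have hb0 : 0 < |b| := by linarith
  refine exists_rsol ht hW.continuousOn h2 (abs_pos.1 hb0) (by linarith) ?_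
  have h3 : (28 * r) ^ 2 ≤ |b| ^ 2 := by gcongr
  rw [sq_abs] at h3
  nlinarith

end Vale.Agent.P167.H947
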