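import Vale.Agent.P167.H411.Flow

/-!
# P167, block DRV6 (D3): the time-`t` map of the Loewner equation near a surviving point

`flow W t z` is the value at time `t` of the solution of the Loewner equation started at `z`
(real or complex).  `hasDerivAt_flow`: it is holomorphic on the open set `surv W t` of the points
which survive up to time `t`, with derivative `exp (- ∫ 2 / (g_s(z) - W_s)² ds)`.
-/

namespace Vale.Agent.P167.H947

open Set Filter Topology MeasureTheory Vale.Agent.P164 Vale.Agent.P153.BESS Vale.Agent.P167.H411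
open scoped ComplexConjugate

variable {W : ℝ → ℝ} {t : ℝ}

/-- The difference of two solutions. -/
theorem csol_sub {z z' : ℂ} {g g' : ℝ → ℂ} (ht : 0 ≤ t) (hW : ContinuousOn W (Icc 0 t))
    (h : CSol W z t g) (h' : CSol W z' t g') :
    ∀ s ∈ Icc 0 t, g s - g' s =
      (z - z') * Complex.exp (-∫ u in (0 : ℝ)..s, 2 / ((g u - W u) * (g' u - W u))) := by
  have hWc : ContinuousOn (fun u => (W u : ℂ)) (Icc 0 t) :=
    Complex.continuous_ofReal.comp_continuousOn hW
  set q : ℝ → ℂ := fun u => 2 / ((g u - W u) * (g' u - W u)) with hq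
  have hne : ∀ u ∈ Icc 0 t, g u - W u ≠ 0 ∧ g' u - W u ≠ 0 := fun u hu =>
    ⟨sub_ne_zero.2 (h.2 u hu).1, sub_ne_zero.2 (h'.2 u hu).1⟩
  have hqc : ContinuousOn q (Icc 0 t) :=
    continuousOn_const.div ((h.cont.sub hWc).mul (h'.cont.sub hWc))
      fun u hu => mul_ne_zero (hne u hu).1 (hne u hu).2
  set Q : ℝ → ℂ := IccExtend ht ((Icc 0 t).restrict q) with hQ
  have hQc : Continuous Q := (continuousOn_iff_continuous_restrict.1 hqc).Icc_extend'
  have hQq : ∀ u ∈ Icc 0 t, Q u = q u := fun u hu => by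
    rw [hQ, IccExtend_of_mem ht _ hu]
    rfl
  have hint : ∀ s ∈ Icc 0 t, ∫ u in (0 : ℝ)..s, q u = ∫ u in (0 : ℝ)..s, Q u := by
    intro s hs
    refine intervalIntegral.integral_congr fun u hu => ?_
    rw [uIcc_of_le hs.1] at hu
    exact (hQq u ⟨hu.1, hu.2.trans hs.2⟩).symm
  have hder : ∀ s, HasDerivAt (fun s => ∫ u in (0 : ℝ)..s, Q u) (Q s) s := fun s =>
    (hQc.integral_hasStrictDerivAt 0 s).hasDerivAt
  set F : ℝ → ℂ := fun s => (g s - g' s) * Complex.exp (∫ u in (0 : ℝ)..s, Q u) with hF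
  have hFd : ∀ s ∈ Icc 0 t, HasDerivWithinAt F 0 (Icc 0 t) s := by
    intro s hs
    obtain ⟨h1, h2⟩ := hne s hs
    have h3 : HasDerivWithinAt F ((2 / (g s - W s) - 2 / (g' s - W s)) *
        Complex.exp (∫ u in (0 : ℝ)..s, Q u) + (g s - g' s) *
        (Complex.exp (∫ u in (0 : ℝ)..s, Q u) * Q s)) (Icc 0 t) s :=
      ((h.2 s hs).2.sub (h'.2 s hs).2).mul ((hder s).cexp.hasDerivWithinAt (s := Icc 0 t))
    refine h3.congr_deriv ?_
    have h4 : (2 : ℂ) / (g s - W s) - 2 / (g' s - W s) + (g s - g' s) * Q s = 0 := by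
      rw [hQq s hs, hq]
      field_simp
      ring
    linear_combination Complex.exp (∫ u in (0 : ℝ)..s, Q u) * h4
  have hFc : ContinuousOn F (Icc 0 t) := fun s hs => (hFd s hs).continuousWithinAt
  have hconst := constant_of_has_deriv_right_zero hFc fun s hs =>
    ((hFd s ⟨hs.1, hs.2.le⟩).mono (Icc_subset_Icc_left hs.1)).mono_of_mem_nhdsWithin
      (Icc_mem_nhdsGE hs.2)
  intro s hs
  have h1 := hconst s hs
  rw [hF] at h1
  simp only [intervalIntegral.integral_same, Complex.exp_zero, mul_one] at h1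
  rw [h.1, h'.1] at h1
  have h2 : (∫ u in (0 : ℝ)..s, 2 / ((g u - W u) * (g' u - W u))) = ∫ u in (0 : ℝ)..s, Q u :=
    hint s hs
  rw [h2, Complex.exp_neg, ← h1, mul_assoc, mul_inv_cancel₀ (Complex.exp_ne_zero _), mul_one]

/-- The points (real or complex) which survive up to time `t`. -/
def surv (W : ℝ → ℝ) (t : ℝ) : Set ℂ := {z | ∃ g, CSol W z t g}

open Classical in
/-- The time-`t` map of the Loewner equation. -/
noncomputable def flow (W : ℝ → ℝ) (t : ℝ) (z : ℂ) : ℂ :=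
  if h : ∃ g, CSol W z t g then h.choose t else 0

theorem flow_eq {z : ℂ} {g : ℝ → ℂ} (ht : 0 ≤ t) (hW : ContinuousOn W (Icc 0 t))
    (h : CSol W z t g) : flow W t z = g t := by
  have h' : ∃ g, CSol W z t g := ⟨g, h⟩
  rw [flow, dif_pos h']
  exact csol_unique ht hW h'.choose_spec h ⟨ht, le_rfl⟩

theorem isOpen_surv (ht : 0 ≤ t) (hW : ContinuousOn W (Icc 0 t)) : IsOpen (surv W t) := by
  rw [Metric.isOpen_iff]
  rintro z ⟨g, hg⟩
  obtain ⟨r, hr, h⟩ := hg.isOpen ht hW
  exact ⟨r, hr, fun z' hz' => h z' (by rwa [mem_ball_iff_norm] at hz')⟩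

theorem flow_inj (ht : 0 ≤ t) (hW : ContinuousOn W (Icc 0 t)) : InjOn (flow W t) (surv W t) := by
  rintro z ⟨g, hg⟩ z' ⟨g', hg'⟩ he
  rw [flow_eq ht hW hg, flow_eq ht hW hg'] at he
  have h := csol_sub ht hW hg hg' t ⟨ht, le_rfl⟩
  rw [he, sub_self, eq_comm, mul_eq_zero] at h
  rcases h with h | h
  · exact sub_eq_zero.1 h
  · exact absurd h (Complex.exp_ne_zero _)

theorem CSol.conj {z : ℂ} {g : ℝ → ℂ} (h : CSol W z t g) :
    CSol W (conj z) t (fun s => conj (g s)) := by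
  refine ⟨by simp only [h.1], fun s hs => ?_⟩
  obtain ⟨h1, h2⟩ := h.2 s hs
  refine ⟨fun h3 => h1 ?_, ?_⟩
  · have := congrArg conj h3
    rwa [Complex.conj_conj, Complex.conj_ofReal] at this
  · have h4 := (Complex.conjCLE.toContinuousLinearMap.hasFDerivAt (x := g s)).comp_hasDerivWithinAt s h2
    have h5 : conj (2 / (g s - (W s : ℂ))) = 2 / (conj (g s) - (W s : ℂ)) := by
      rw [map_div₀, map_sub, Complex.conj_ofReal]
      congr 1
      exact Complex.conj_ofNat 2
    rw [← h5]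
    exact h4

theorem flow_conj (ht : 0 ≤ t) (hW : ContinuousOn W (Icc 0 t)) {z : ℂ} (hz : z ∈ surv W t) :
    flow W t (conj z) = conj (flow W t z) := by
  obtain ⟨g, hg⟩ := hz
  rw [flow_eq ht hW hg, flow_eq ht hW (CSol.conj hg)]

theorem flow_rsol {b : ℝ} {y : ℝ → ℝ} (ht : 0 ≤ t) (hW : ContinuousOn W (Icc 0 t))
    (hy : RSol W b t y) : flow W t b = y t := flow_eq ht hW hy.csol

theorem _root_.Vale.Agent.P164.IsLoewnerSol.csol' {z : ℂ} {g : ℝ → ℂ} (h : IsLoewnerSol W z t g) :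
    CSol W z t g := by
  refine ⟨h.1, fun s hs => ⟨fun h1 => ?_, (h.2 s hs).2⟩⟩
  have h2 := (h.2 s hs).1
  rw [h1, Complex.ofReal_im] at h2
  exact lt_irrefl _ h2

theorem flow_loewner {z : ℂ} {g : ℝ → ℂ} (ht : 0 ≤ t) (hW : ContinuousOn W (Icc 0 t))
    (h : IsLoewnerSol W z t g) : flow W t z = g t := flow_eq ht hW h.csol'

/-- The points of the open half-plane which survive are the points of the Loewner domain. -/
theorem surv_inter (hW : ContinuousOn W (Icc 0 t)) {z : ℂ} (hz : 0 < z.im) :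
    z ∈ surv W t ↔ z ∈ loewnerDomain W t :=
  ⟨fun ⟨g, hg⟩ => ⟨g, hg.loewner hW hz⟩, fun ⟨g, hg⟩ => ⟨g, hg.csol'⟩⟩

/-- **The time-`t` map is holomorphic at the surviving points.** -/
theorem hasDerivAt_flow {z : ℂ} {g : ℝ → ℂ} (ht : 0 ≤ t) (hW : ContinuousOn W (Icc 0 t))
    (h : CSol W z t g) :
    HasDerivAt (flow W t) (Complex.exp (-∫ u in (0 : ℝ)..t, 2 / (g u - W u) ^ 2)) z := by
  obtain ⟨c, hc, hgap⟩ := h.exists_gap ht hW
  have hc2 : 0 < c / 2 := by positivity
  have hWc : ContinuousOn (fun u => (W u : ℂ)) (Icc 0 t) :=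
    Complex.continuous_ofReal.comp_continuousOn hW
  have hreg : Reg W (c / 2) t g := h.reg hc2 fun s hs => (by linarith [hgap s hs])
  set E : ℝ := Real.exp (6 / (c / 2) ^ 2 * t) with hE
  have hE0 : 0 < E := Real.exp_pos _
  -- solutions started close to `z`
  have key : ∀ z' : ℂ, ‖z' - z‖ < (c / 2) / E → ∃ g', CSol W z' t g' ∧ ∀ s ∈ Icc 0 t,
      c / 2 ≤ ‖g' s - W s‖ ∧ ‖g' s - g s‖ ≤ ‖z' - z‖ * E := by
    intro z' hz'
    obtain ⟨α, h0, hα⟩ := exists_reg ht hc2 hW z'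
    have h2 : ∀ s ∈ Icc 0 t, ‖α s - g s‖ ≤ ‖z' - z‖ * E := by
      intro s hs
      have h1 : dist (α 0) (g 0) ≤ ‖z' - z‖ := by rw [h0, h.1, dist_eq_norm]
      have h2 := Reg.dist_le hc2 (show Reg W (c / 2) t α from hα) hreg h1 hs
      rw [dist_eq_norm] at h2
      refine h2.trans (mul_le_mul_of_nonneg_left ?_ (norm_nonneg _))
      rw [hE]
      exact Real.exp_le_exp.2 (mul_le_mul_of_nonneg_left hs.2 (by positivity))
    have h3 : ∀ s ∈ Icc 0 t, c / 2 ≤ ‖α s - W s‖ := by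
      intro s hs
      have h4 := hgap s hs
      have h5 : ‖g s - (W s : ℂ)‖ ≤ ‖α s - (W s : ℂ)‖ + ‖α s - g s‖ := by
        have e : g s - (W s : ℂ) = (α s - (W s : ℂ)) - (α s - g s) := by ring
        rw [e]
        exact norm_sub_le _ _
      have h6 : ‖z' - z‖ * E ≤ c / 2 := by
        rw [lt_div_iff₀ hE0] at hz'
        exact hz'.le
      linarith [h2 s hs]
    exact ⟨α, CSol_of_reg hc2 h0 hα h3, fun s hs => ⟨h3 s hs, h2 s hs⟩⟩
  rw [hasDerivAt_iff_tendsto_slope]
  -- the exponent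
  set A : ℂ := ∫ u in (0 : ℝ)..t, 2 / (g u - W u) ^ 2 with hA
  have hA2 : A = ∫ u in (0 : ℝ)..t, 2 / ((g u - W u) * (g u - W u)) := by
    rw [hA]
    simp only [sq]
  set C : ℝ := 8 * E * t / c ^ 3 with hC
  have hexp : ∀ z' : ℂ, ‖z' - z‖ < (c / 2) / E → z' ≠ z → ∃ B : ℂ,
      slope (flow W t) z z' = Complex.exp (-B) ∧ ‖B - A‖ ≤ C * ‖z' - z‖ := by
    intro z' hz' hne
    obtain ⟨g', hg', hb⟩ := key z' hz'
    refine ⟨∫ u in (0 : ℝ)..t, 2 / ((g' u - W u) * (g u - W u)), ?_, ?_⟩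
    · have h1 := csol_sub ht hW hg' h t ⟨ht, le_rfl⟩
      rw [slope_def_field, flow_eq ht hW hg', flow_eq ht hW h, h1,
        mul_div_cancel_left₀ _ (sub_ne_zero.2 hne)]
    · have hi : ∀ f : ℝ → ℂ, CSol W (f 0) t f →
          IntervalIntegrable (fun u => (2 : ℂ) / ((f u - W u) * (g u - W u))) volume 0 t := by
        intro f hf
        refine ContinuousOn.intervalIntegrable ?_
        rw [uIcc_of_le ht]
        refine continuousOn_const.div ((hf.cont.sub hWc).mul (h.cont.sub hWc)) fun u hu => ?_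
        exact mul_ne_zero (sub_ne_zero.2 (hf.2 u hu).1) (sub_ne_zero.2 (h.2 u hu).1)
      have h1 := hi g' (by rw [hg'.1]; exact hg')
      have h2 := hi g (by rw [h.1]; exact h)
      rw [hA2, ← intervalIntegral.integral_sub h1 h2]
      have hbd : ∀ s ∈ uIoc 0 t, ‖(2 : ℂ) / ((g' s - W s) * (g s - W s)) -
          2 / ((g s - W s) * (g s - W s))‖ ≤ 8 * E / c ^ 3 * ‖z' - z‖ := by
        intro s hs
        rw [uIoc_of_le ht] at hs
        have hs' : s ∈ Icc 0 t := ⟨hs.1.le, hs.2⟩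
        obtain ⟨h3, h4⟩ := hb s hs'
        have h5 := hgap s hs'
        have h6 : g' s - W s ≠ 0 := by
          intro h0
          rw [h0, norm_zero] at h3
          linarith
        have h7 : g s - W s ≠ 0 := by
          intro h0
          rw [h0, norm_zero] at h5
          linarith
        have e1 : (2 : ℂ) / ((g' s - W s) * (g s - W s)) - 2 / ((g s - W s) * (g s - W s)) =
            2 * (g s - g' s) / ((g' s - W s) * (g s - W s) * (g s - W s)) := by
          field_simp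
          ring
        rw [e1, norm_div, norm_mul, norm_mul, norm_mul, norm_sub_rev (g s) (g' s)]
        have h8 : ‖(2 : ℂ)‖ = 2 := by simp
        rw [h8]
        have h9 : c / 2 * c * c ≤ ‖g' s - W s‖ * ‖g s - W s‖ * ‖g s - W s‖ := by
          gcongr
        calc 2 * ‖g' s - g s‖ / (‖g' s - W s‖ * ‖g s - W s‖ * ‖g s - W s‖)
            ≤ 2 * (‖z' - z‖ * E) / (c / 2 * c * c) :=
              div_le_div₀ (by positivity) (by gcongr) (by positivity) h9
          _ = 4 * E / c ^ 3 * ‖z' - z‖ := by field_simp; ring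
          _ ≤ 8 * E / c ^ 3 * ‖z' - z‖ := by gcongr; norm_num
      have h3 := intervalIntegral.norm_integral_le_of_norm_le_const hbd
      rw [sub_zero, abs_of_nonneg ht] at h3
      refine h3.trans (le_of_eq ?_)
      rw [hC]
      ring
  have hCn : 0 ≤ C := by positivity
  rw [Metric.tendsto_nhdsWithin_nhds]
  intro ε hε
  -- continuity of `exp`
  obtain ⟨δ, hδ, hd⟩ := Metric.continuousAt_iff.1 (Complex.continuous_exp.continuousAt (x := -A)) ε hε
  refine ⟨min ((c / 2) / E) (δ / (C + 1)), lt_min (by positivity) (by positivity), ?_⟩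
  intro z' hz' hdz
  rw [dist_eq_norm] at hdz
  obtain ⟨B, hB1, hB2⟩ := hexp z' (hdz.trans_le (min_le_left _ _)) hz'
  rw [hB1]
  apply hd
  rw [dist_eq_norm, show -B - -A = -(B - A) by ring, norm_neg]
  refine hB2.trans_lt ?_
  have h1 : ‖z' - z‖ < δ / (C + 1) := hdz.trans_le (min_le_right _ _)
  rw [lt_div_iff₀ (by positivity)] at h1
  have h2 : 0 ≤ ‖z' - z‖ := norm_nonneg _
  by_cases h3 : ‖z' - z‖ = 0
  · rw [h3, mul_zero]; exact hδ
  · have h4 : 0 < ‖z' - z‖ := lt_of_le_of_ne h2 (Ne.symm h3)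
    nlinarith

theorem differentiableOn_flow (ht : 0 ≤ t) (hW : ContinuousOn W (Icc 0 t)) :
    DifferentiableOn ℂ (flow W t) (surv W t) := by
  rintro z ⟨g, hg⟩
  exact (hasDerivAt_flow ht hW hg).differentiableAt.differentiableWithinAt

/-- The derivative at a real point. -/
theorem hasDerivAt_flow_real {b : ℝ} {y : ℝ → ℝ} (ht : 0 ≤ t) (hW : ContinuousOn W (Icc 0 t))
    (hy : RSol W b t y) :
    HasDerivAt (flow W t) ((Real.exp (ldv W y t) : ℝ) : ℂ) b := by
  have h := hasDerivAt_flow ht hW hy.csol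
  have e : Complex.exp (-∫ u in (0 : ℝ)..t, 2 / (((y u : ℝ) : ℂ) - W u) ^ 2) =
      ((Real.exp (ldv W y t) : ℝ) : ℂ) := by
    rw [Complex.ofReal_exp, ldv]
    push_cast
    congr 2
    rw [← intervalIntegral.integral_ofReal]
    refine intervalIntegral.integral_congr fun u _ => ?_
    push_cast
    rfl
  rwa [e] at h

end Vale.Agent.P167.H947
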