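import Vale.Agent.P167.H947.Flow
import Vale.Agent.P153.R2.L2.Gen

/-!
# P167, block DRV6 (D3): boundary values and derivatives of the hydrodynamic maps

For a Loewner chain `Chain W K g S` and a real point `b` which survives (`RSol W b t y`), the map
`g t` extends holomorphically and injectively to a full neighbourhood of `b`, with value `y t` and
derivative `exp (ldv W y t)` at `b`.  Far points survive.
-/

namespace Vale.Agent.P167.H947

open Complex Metric Set Filter Topology MeasureTheory Vale.Agent.P164 Vale.Agent.P153.BESS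
open Vale.Agent.P167.H411 Vale.Agent.P153.R2.L1 Vale.Agent.P153.R2.L2
open scoped ComplexConjugate

variable {W : ℝ → ℝ} {K : ℝ → Set ℂ} {g : ℝ → ℂ → ℂ} {S t : ℝ}

theorem chain_W (h : Chain W K g S) (ht : t ∈ Ico 0 S) : ContinuousOn W (Icc 0 t) :=
  h.cont.mono fun _ hs => ⟨hs.1, hs.2.trans_lt ht.2⟩

/-- The hydrodynamic map is the time-`t` map. -/
theorem chain_flow (h : Chain W K g S) (ht : t ∈ Ico 0 S) {z : ℂ} (hz : z ∈ HH \ K t) :
    z ∈ surv W t ∧ flow W t z = g t z :=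
  ⟨⟨_, (h.sol ht hz).csol'⟩, flow_loewner ht.1 (chain_W h ht) (h.sol ht hz)⟩

theorem chain_surv (h : Chain W K g S) (ht : t ∈ Ico 0 S) {z : ℂ} (hz : z ∈ HH) :
    z ∈ surv W t ↔ z ∉ K t := by
  rw [surv_inter (chain_W h ht) hz, h.dom ht]
  exact ⟨fun h1 => h1.2, fun h1 => ⟨hz, h1⟩⟩

/-- the map near a surviving real point: general form -/
theorem link_aux (ht : 0 ≤ t) (hW : ContinuousOn W (Icc 0 t)) {b : ℝ} {y : ℝ → ℝ}
    (hy : RSol W b t y) : ∃ r > 0, ball (b : ℂ) r ⊆ surv W t ∧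
      DifferentiableOn ℂ (flow W t) (ball (b : ℂ) r) ∧ InjOn (flow W t) (ball (b : ℂ) r) ∧
      (∀ z ∈ ball (b : ℂ) r, flow W t (conj z) = conj (flow W t z)) ∧
      (∀ x : ℝ, (x : ℂ) ∈ ball (b : ℂ) r → (flow W t x).im = 0) ∧
      flow W t b = y t ∧ HasDerivAt (flow W t) ((Real.exp (ldv W y t) : ℝ) : ℂ) b := by
  obtain ⟨r, hr, hsub⟩ := Metric.isOpen_iff.1 (isOpen_surv ht hW) (b : ℂ) ⟨_, hy.csol⟩
  refine ⟨r, hr, hsub, (differentiableOn_flow ht hW).mono hsub, (flow_inj ht hW).mono hsub,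
    fun z hz => flow_conj ht hW (hsub hz), fun x hx => ?_, flow_rsol ht hW hy,
    hasDerivAt_flow_real ht hW hy⟩
  have h1 := flow_conj ht hW (hsub hx)
  rw [conj_ofReal] at h1
  exact Complex.conj_eq_iff_im.1 h1.symm

/-- **The hydrodynamic maps of a Loewner chain near a surviving real point.** -/
theorem chain_link (h : Chain W K g S) (ht : t ∈ Ico 0 S) {b : ℝ} {y : ℝ → ℝ}
    (hy : RSol W b t y) : ∃ r > 0, ∃ Φ : ℂ → ℂ,
      DifferentiableOn ℂ Φ (ball (b : ℂ) r) ∧ InjOn Φ (ball (b : ℂ) r) ∧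
      (∀ z ∈ ball (b : ℂ) r, Φ (conj z) = conj (Φ z)) ∧
      (∀ x : ℝ, (x : ℂ) ∈ ball (b : ℂ) r → (Φ x).im = 0) ∧
      Φ b = y t ∧ HasDerivAt Φ ((Real.exp (ldv W y t) : ℝ) : ℂ) b ∧
      (∀ z ∈ ball (b : ℂ) r, 0 < z.im → z ∉ K t ∧ Φ z = g t z) := by
  obtain ⟨r, hr, h1, h2, h3, h4, h5, h6, h7⟩ := link_aux ht.1 (chain_W h ht) hy
  refine ⟨r, hr, flow W t, h2, h3, h4, h5, h6, h7, fun z hz hzi => ?_⟩
  have h8 : z ∉ K t := (chain_surv h ht hzi).1 (h1 hz)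
  exact ⟨h8, (chain_flow h ht ⟨hzi, h8⟩).2⟩

/-- boundary value -/
theorem chain_tendsto (h : Chain W K g S) (ht : t ∈ Ico 0 S) {b : ℝ} {y : ℝ → ℝ}
    (hy : RSol W b t y) : Tendsto (g t) (𝓝[HH] (b : ℂ)) (𝓝 ((y t : ℝ) : ℂ)) := by
  obtain ⟨r, hr, Φ, -, -, -, -, h5, h6, h7⟩ := chain_link h ht hy
  have h8 : Tendsto Φ (𝓝[HH] (b : ℂ)) (𝓝 ((y t : ℝ) : ℂ)) := by
    have := h6.continuousAt.tendsto
    rw [h5] at this
    exact this.mono_left nhdsWithin_le_nhds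
  refine h8.congr' ?_
  filter_upwards [self_mem_nhdsWithin, mem_nhdsWithin_of_mem_nhds (ball_mem_nhds (b : ℂ) hr)]
    with z hz hz'
  exact (h7 z hz' hz).2

/-- boundary derivative -/
theorem chain_tendsto_deriv (h : Chain W K g S) (ht : t ∈ Ico 0 S) {b : ℝ} {y : ℝ → ℝ}
    (hy : RSol W b t y) :
    Tendsto (fun z => (g t z - y t) / (z - b)) (𝓝[HH] (b : ℂ))
      (𝓝 ((Real.exp (ldv W y t) : ℝ) : ℂ)) := by
  obtain ⟨r, hr, Φ, -, -, -, -, h5, h6, h7⟩ := chain_link h ht hy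
  rw [hasDerivAt_iff_tendsto_slope] at h6
  have h8 : 𝓝[HH] (b : ℂ) ≤ 𝓝[≠] (b : ℂ) := by
    refine nhdsWithin_mono _ fun z hz => ?_
    rintro rfl
    rw [mem_HH, ofReal_im] at hz
    exact lt_irrefl _ hz
  refine (h6.mono_left h8).congr' ?_
  filter_upwards [self_mem_nhdsWithin, mem_nhdsWithin_of_mem_nhds (ball_mem_nhds (b : ℂ) hr)]
    with z hz hz'
  rw [slope_def_field, h5, (h7 z hz' hz).2]

/-- boundary values at complex points of the half-plane and derivative of the map itself -/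
theorem chain_hasDerivAt (h : Chain W K g S) (ht : t ∈ Ico 0 S) {z : ℂ} (hz : z ∈ HH \ K t) :
    HasDerivAt (g t) (Complex.exp (-∫ u in (0 : ℝ)..t, 2 / (g u z - W u) ^ 2)) z := by
  have h1 := hasDerivAt_flow ht.1 (chain_W h ht) (h.sol ht hz).csol'
  refine h1.congr_of_eventuallyEq ?_
  filter_upwards [(h.hyd t ht).isOpen.mem_nhds hz] with w hw
  exact (chain_flow h ht hw).2.symm

/-- the driver stays close to the hull -/
theorem chain_drv_le (h : Chain W K g S) (ht : t ∈ Ioo 0 S) {x₀ r : ℝ} (hr : 0 ≤ r)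
    (hK : HH ∩ K t ⊆ closedBall (x₀ : ℂ) r) : ∀ s ∈ Icc 0 t, |W s - x₀| ≤ 9 * r := by
  have ht' : t ∈ Ico 0 S := ⟨ht.1.le, ht.2⟩
  -- the times before `t`
  have h1 : ∀ s ∈ Ico 0 t, |W s - x₀| ≤ 9 * r := by
    intro s hs
    have hsS : s ∈ Ico 0 S := ⟨hs.1, hs.2.trans ht.2⟩
    refine le_of_forall_pos_le_add fun ε hε => ?_
    obtain ⟨δ, hδ, hsm⟩ := h.small s hsS.2 ε hε
    set s' := min (s + δ) t with hs'
    have h2 : s < s' := lt_min (by linarith) hs.2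
    have h3 : s' < S := (min_le_right _ _).trans_lt ht.2
    obtain ⟨z, hz1, hz2⟩ := h.strict hs.1 h2 h3
    have h4 := hsm s s' hs.1 le_rfl h2.le (min_le_left _ _) h3 ⟨z, ⟨hz1, hz2⟩, rfl⟩
    rw [mem_closedBall, dist_eq_norm] at h4
    have h5 : HH ∩ K s ⊆ closedBall (x₀ : ℂ) r := fun w hw =>
      hK ⟨hw.1, h.mono s t hs.1 hs.2.le ht.2 hw⟩
    have h6 : ‖g s z - z‖ ≤ 8 * r := s_disp (K s) (g s) x₀ r (h.hyd s hsS) hr h5 z hz1
    have h7 : z ∈ closedBall (x₀ : ℂ) r :=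
      hK ⟨hz1.1, h.mono s' t (hs.1.trans h2.le) (min_le_right _ _) ht.2 ⟨hz1.1, hz2⟩⟩
    rw [mem_closedBall, dist_eq_norm] at h7
    have h8 : ((W s - x₀ : ℝ) : ℂ) = -(g s z - W s) + (g s z - z) + (z - x₀) := by
      push_cast; ring
    rw [← Real.norm_eq_abs, ← norm_real, h8]
    calc _ ≤ ‖-(g s z - W s)‖ + ‖g s z - z‖ + ‖z - x₀‖ :=
          (norm_add_le _ _).trans (add_le_add_left (norm_add_le _ _) _)
      _ ≤ ε + 8 * r + r := by rw [norm_neg]; gcongr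
      _ = 9 * r + ε := by ring
  intro s hs
  rcases hs.2.lt_or_eq with h2 | h2
  · exact h1 s ⟨hs.1, h2⟩
  · subst h2
    have hc : ContinuousWithinAt W (Ico 0 s) s := (h.cont s ht').mono
      fun u hu => ⟨hu.1, hu.2.trans ht.2⟩
    have hne : (𝓝[Ico 0 s] s).NeBot := by
      have h3 : 𝓝[<] s ≤ 𝓝[Ico 0 s] s := nhdsWithin_le_iff.2
        (mem_of_superset (Ioo_mem_nhdsLT ht.1) fun u hu => ⟨hu.1.le, hu.2⟩)
      exact (inferInstance : (𝓝[<] s).NeBot).mono h3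
    refine le_of_tendsto ((hc.sub continuousWithinAt_const).abs) ?_
    filter_upwards [self_mem_nhdsWithin] with u hu
    exact h1 u hu

/-- **Far real points survive.** -/
theorem chain_exists_rsol (h : Chain W K g S) (ht : t ∈ Ioo 0 S) {r : ℝ} (hr : 0 < r)
    (hK : HH ∩ K t ⊆ closedBall (0 : ℂ) r) {b : ℝ} (hb : 36 * r ≤ |b|) :
    ∃ y, RSol W b t y := by
  have hK' : HH ∩ K t ⊆ closedBall (((0 : ℝ) : ℂ)) r := by simpa using hK
  have h1 := chain_drv_le h ht hr.le hK'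
  simp only [sub_zero] at h1
  have ht' : t ∈ Ico 0 S := ⟨ht.1.le, ht.2⟩
  have h2 := (s_cap_le (K t) (g t) 0 r (h.hyd t ht') hr.le hK').2
  rw [h.cap t ht'] at h2
  have hb0 : 0 < |b| := by linarith
  refine exists_rsol ht.1.le (chain_W h ht') h1 (abs_pos.1 hb0) (by linarith) ?_
  have h3 : (36 * r) ^ 2 ≤ |b| ^ 2 := by gcongr
  rw [sq_abs] at h3
  nlinarith

end Vale.Agent.P167.H947
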